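import Vale.Agent.P235.Bdl.B1

/-!
P235, line EX, row [E2], metric half: depths in the legs of a tripod, the tripod law, the shrink.
`A i` = Gromov products of the prescribed root distances: `ρ i j = A i + A j` (`i ≠ j`).
-/

set_option autoImplicit false

namespace Vale.Agent.P235.K5.EX.H360

open Vale.Agent.P235

variable {V : Type}

/-- `A` are the legs of a tripod whose distances are at most those of the root triple `R`. -/
structure Leg (d : V → V → ℝ) (R : Fin 3 → V) (A : Fin 3 → ℝ) : Prop where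
  nn : ∀ i, 0 ≤ A i
  le : ∀ i j, i ≠ j → A i + A j ≤ d (R i) (R j)

/-- the depth of `x` in the leg `i` -/
noncomputable def ee (d : V → V → ℝ) (R : Fin 3 → V) (A : Fin 3 → ℝ) (i : Fin 3) (x : V) : ℝ :=
  max (A i - d x (R i)) 0

/-- the tripod law -/
noncomputable def TT (d : V → V → ℝ) (R : Fin 3 → V) (A : Fin 3 → ℝ) (x y : V) : ℝ :=
  ∑ i, |ee d R A i x - ee d R A i y|

/-- one term of the shrink -/
noncomputable def trm (d : V → V → ℝ) (R : Fin 3 → V) (A : Fin 3 → ℝ) (i j : Fin 3) (x y : V) :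
    ℝ :=
  if i = j then 0 else
    min (d (R i) (R j) - (A i + A j)) (min (ee d R A i x) (ee d R A j y) / 4)

/-- the shrink -/
noncomputable def shr (d : V → V → ℝ) (R : Fin 3 → V) (A : Fin 3 → ℝ) (x y : V) : ℝ :=
  ∑ i, ∑ j, trm d R A i j x y

variable {d : V → V → ℝ} {R : Fin 3 → V} {A : Fin 3 → ℝ}

theorem ee_nonneg (i : Fin 3) (x : V) : 0 ≤ ee d R A i x := le_max_right _ _

theorem le_ee (i : Fin 3) (x : V) : A i - d x (R i) ≤ ee d R A i x := le_max_left _ _

theorem ee_pos {i : Fin 3} {x : V} (h : 0 < ee d R A i x) :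
    ee d R A i x = A i - d x (R i) ∧ d x (R i) < A i := by
  unfold ee at h ⊢
  rcases lt_max_iff.1 h with h1 | h1
  · exact ⟨max_eq_left h1.le, by linarith⟩
  · exact absurd h1 (lt_irrefl _)

theorem ee_lip (hd : IsMet d) (i : Fin 3) (x y : V) :
    |ee d R A i x - ee d R A i y| ≤ d x y := by
  have key : ∀ x y, ee d R A i x ≤ ee d R A i y + d x y := by
    intro x y
    have h1 := hd.tri y x (R i)
    rw [hd.symm y x] at h1
    have h2 := le_ee (d := d) (R := R) (A := A) i y
    refine max_le (by linarith) ?_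
    linarith [hd.nonneg x y, ee_nonneg (d := d) (R := R) (A := A) i y]
  rw [abs_le]
  have h1 := key x y
  have h2 := key y x
  rw [hd.symm y x] at h2
  constructor <;> linarith

theorem ee_root (hd : IsMet d) (h : Leg d R A) (i : Fin 3) : ee d R A i (R i) = A i := by
  unfold ee
  rw [hd.self, sub_zero]
  exact max_eq_left (h.nn i)

theorem ee_other (hd : IsMet d) (h : Leg d R A) {i j : Fin 3} (hij : i ≠ j) :
    ee d R A i (R j) = 0 := by
  unfold ee
  apply max_eq_right
  have h1 := h.le i j hij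
  have h2 := h.nn j
  rw [hd.symm (R j) (R i)]
  linarith

/-- at most one depth is positive -/
theorem ee_one (hd : IsMet d) (h : Leg d R A) {i j : Fin 3} (hij : i ≠ j) {x : V}
    (hx : 0 < ee d R A i x) : ee d R A j x = 0 := by
  by_contra h1
  have h2 : 0 < ee d R A j x := lt_of_le_of_ne (ee_nonneg j x) (Ne.symm h1)
  have h3 := (ee_pos hx).2
  have h4 := (ee_pos h2).2
  have h5 := h.le i j hij
  have h6 := hd.tri (R i) x (R j)
  rw [hd.symm (R i) x] at h6
  linarith

theorem ee_far (hd : IsMet d) {i j : Fin 3} {x y : V}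
    (hx : 0 < ee d R A i x) (hy : 0 < ee d R A j y) :
    ee d R A i x + ee d R A j y + (d (R i) (R j) - (A i + A j)) ≤ d x y := by
  rw [(ee_pos hx).1, (ee_pos hy).1]
  have h1 := hd.tri (R i) x (R j)
  have h2 := hd.tri x y (R j)
  rw [hd.symm (R i) x] at h1
  linarith

theorem isL1_TT [Finite V] : IsL1 (TT d R A) := by
  have h : IsL1 (fun x y => ∑ i, |ee d R A i x - ee d R A i y|) :=
    IsL1.sum Finset.univ (fun i x y => |ee d R A i x - ee d R A i y|) fun i _ => isL1_line _
  exact h

theorem TT_nonneg (x y : V) : 0 ≤ TT d R A x y := Finset.sum_nonneg fun _ _ => abs_nonneg _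

theorem TT_symm (x y : V) : TT d R A x y = TT d R A y x := by
  unfold TT
  exact Finset.sum_congr rfl fun i _ => abs_sub_comm _ _

/-- two positive depths in different legs -/
theorem TT_far (hd : IsMet d) (h : Leg d R A) {i j : Fin 3} (hij : i ≠ j) {x y : V}
    (hx : 0 < ee d R A i x) (hy : 0 < ee d R A j y) :
    TT d R A x y = ee d R A i x + ee d R A j y := by
  unfold TT
  have hk : ∀ k, k ≠ i → ee d R A k x = 0 := fun k hk => ee_one hd h (Ne.symm hk) hx
  have hk' : ∀ k, k ≠ j → ee d R A k y = 0 := fun k hk => ee_one hd h (Ne.symm hk) hy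
  rw [Fin.sum_univ_three]
  have key : ∀ k : Fin 3, |ee d R A k x - ee d R A k y| = ee d R A k x + ee d R A k y := by
    intro k
    by_cases h1 : k = i
    · have h2 : k ≠ j := by rw [h1]; exact hij
      rw [hk' k h2, sub_zero, add_zero, abs_of_nonneg (ee_nonneg k x)]
    · rw [hk k h1, zero_sub, zero_add, abs_neg, abs_of_nonneg (ee_nonneg k y)]
  rw [key 0, key 1, key 2]
  have e1 : ee d R A 0 x + ee d R A 1 x + ee d R A 2 x = ee d R A i x := by
    fin_cases i
    · rw [hk 1 (by decide), hk 2 (by decide)]; simp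
    · rw [hk 0 (by decide), hk 2 (by decide)]; simp
    · rw [hk 0 (by decide), hk 1 (by decide)]; simp
  have e2 : ee d R A 0 y + ee d R A 1 y + ee d R A 2 y = ee d R A j y := by
    fin_cases j
    · rw [hk' 1 (by decide), hk' 2 (by decide)]; simp
    · rw [hk' 0 (by decide), hk' 2 (by decide)]; simp
    · rw [hk' 0 (by decide), hk' 1 (by decide)]; simp
  linarith

/-- otherwise at most one leg enters -/
theorem TT_near (hd : IsMet d) (h : Leg d R A) {x y : V}
    (hno : ∀ i j, i ≠ j → ee d R A i x = 0 ∨ ee d R A j y = 0) :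
    ∃ k, TT d R A x y = |ee d R A k x - ee d R A k y| := by
  unfold TT
  have hz : ∃ k : Fin 3, ∀ i, i ≠ k → ee d R A i x = 0 ∧ ee d R A i y = 0 := by
    by_cases hx : ∃ k, 0 < ee d R A k x
    · obtain ⟨k, hk⟩ := hx
      refine ⟨k, fun i hi => ⟨ee_one hd h (Ne.symm hi) hk, ?_⟩⟩
      rcases hno k i (Ne.symm hi) with h1 | h1
      · exact absurd h1 hk.ne'
      · exact h1
    · push Not at hx
      have hx' : ∀ k, ee d R A k x = 0 := fun k => le_antisymm (hx k) (ee_nonneg k x)
      by_cases hy : ∃ k, 0 < ee d R A k y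
      · obtain ⟨k, hk⟩ := hy
        exact ⟨k, fun i hi => ⟨hx' i, ee_one hd h (Ne.symm hi) hk⟩⟩
      · push Not at hy
        exact ⟨0, fun i _ => ⟨hx' i, le_antisymm (hy i) (ee_nonneg i y)⟩⟩
  obtain ⟨k, hk⟩ := hz
  refine ⟨k, ?_⟩
  apply Finset.sum_eq_single_of_mem k (Finset.mem_univ k)
  intro i _ hi
  rw [(hk i hi).1, (hk i hi).2, sub_zero, abs_zero]

theorem trm_nonneg (h : Leg d R A) (i j : Fin 3) (x y : V) : 0 ≤ trm d R A i j x y := by
  unfold trm
  split_ifs with h1
  · exact le_rfl
  · refine le_min (by linarith [h.le i j h1]) (div_nonneg ?_ (by norm_num))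
    exact le_min (ee_nonneg i x) (ee_nonneg j y)

theorem shr_nonneg (h : Leg d R A) (x y : V) : 0 ≤ shr d R A x y :=
  Finset.sum_nonneg fun i _ => Finset.sum_nonneg fun j _ => trm_nonneg h i j x y

theorem trm_zero (h : Leg d R A) {i j : Fin 3} {x y : V}
    (h0 : i = j ∨ ee d R A i x = 0 ∨ ee d R A j y = 0) : trm d R A i j x y = 0 := by
  unfold trm
  split_ifs with h1
  · rfl
  · have h2 : min (ee d R A i x) (ee d R A j y) = 0 := by
      rcases h0 with h0 | h0 | h0
      · exact absurd h0 h1
      · rw [h0]; exact min_eq_left (ee_nonneg j y)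
      · rw [h0]; exact min_eq_right (ee_nonneg i x)
    rw [h2, zero_div]
    exact min_eq_right (by linarith [h.le i j h1])

theorem shr_far (hd : IsMet d) (h : Leg d R A) {i j : Fin 3} (hij : i ≠ j) {x y : V}
    (hx : 0 < ee d R A i x) (hy : 0 < ee d R A j y) :
    shr d R A x y = min (d (R i) (R j) - (A i + A j)) (min (ee d R A i x) (ee d R A j y) / 4) := by
  unfold shr
  rw [Finset.sum_eq_single_of_mem i (Finset.mem_univ i), Finset.sum_eq_single_of_mem j
    (Finset.mem_univ j)]
  · unfold trm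
    rw [if_neg hij]
  · intro k _ hk
    exact trm_zero h (Or.inr (Or.inr (ee_one hd h (Ne.symm hk) hy)))
  · intro k _ hk
    apply Finset.sum_eq_zero
    intro l _
    exact trm_zero h (Or.inr (Or.inl (ee_one hd h (Ne.symm hk) hx)))

theorem shr_near (h : Leg d R A) {x y : V}
    (hno : ∀ i j, i ≠ j → ee d R A i x = 0 ∨ ee d R A j y = 0) : shr d R A x y = 0 := by
  unfold shr
  apply Finset.sum_eq_zero
  intro i _
  apply Finset.sum_eq_zero
  intro j _
  by_cases hij : i = j
  · exact trm_zero h (Or.inl hij)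
  · exact trm_zero h (Or.inr (hno i j hij))

/-- **The dichotomy**: either the shrink vanishes and one leg carries the tripod law, or the two
points are in two different legs. -/
theorem cases (hd : IsMet d) (h : Leg d R A) (x y : V) :
    ((∀ i j, i ≠ j → ee d R A i x = 0 ∨ ee d R A j y = 0) ∧ shr d R A x y = 0 ∧
        ∃ k, TT d R A x y = |ee d R A k x - ee d R A k y|) ∨
      ∃ i j, i ≠ j ∧ 0 < ee d R A i x ∧ 0 < ee d R A j y ∧
        TT d R A x y = ee d R A i x + ee d R A j y ∧
        shr d R A x y =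
          min (d (R i) (R j) - (A i + A j)) (min (ee d R A i x) (ee d R A j y) / 4) ∧
        ee d R A i x + ee d R A j y + (d (R i) (R j) - (A i + A j)) ≤ d x y := by
  by_cases hno : ∀ i j, i ≠ j → ee d R A i x = 0 ∨ ee d R A j y = 0
  · exact Or.inl ⟨hno, shr_near h hno, TT_near hd h hno⟩
  · right
    push Not at hno
    obtain ⟨i, j, hij, h1, h2⟩ := hno
    have hx : 0 < ee d R A i x := lt_of_le_of_ne (ee_nonneg i x) (Ne.symm h1)
    have hy : 0 < ee d R A j y := lt_of_le_of_ne (ee_nonneg j y) (Ne.symm h2)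
    exact ⟨i, j, hij, hx, hy, TT_far hd h hij hx hy, shr_far hd h hij hx hy, ee_far hd hx hy⟩

theorem TT_le (hd : IsMet d) (h : Leg d R A) (x y : V) : TT d R A x y ≤ d x y - shr d R A x y := by
  rcases cases hd h x y with ⟨_, h1, k, h2⟩ | ⟨i, j, hij, _, _, h1, h2, h3⟩
  · rw [h1, h2, sub_zero]
    exact ee_lip hd k x y
  · rw [h1, h2]
    have h4 := min_le_left (d (R i) (R j) - (A i + A j)) (min (ee d R A i x) (ee d R A j y) / 4)
    linarith

theorem TT_le_d (hd : IsMet d) (h : Leg d R A) (x y : V) : TT d R A x y ≤ d x y := by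
  have := TT_le hd h x y
  have := shr_nonneg h x y
  linarith

/-- the shrink is at most a quarter of the least of the two depths, at most an eighth of `d` -/
theorem shr_le (hd : IsMet d) (h : Leg d R A) (x y : V) : shr d R A x y ≤ d x y / 8 := by
  rcases cases hd h x y with ⟨_, h1, _⟩ | ⟨i, j, hij, hx, hy, h1, h2, h3⟩
  · rw [h1]
    exact div_nonneg (hd.nonneg x y) (by norm_num)
  · rw [h2]
    have h4 := min_le_right (d (R i) (R j) - (A i + A j)) (min (ee d R A i x) (ee d R A j y) / 4)
    have h5 := min_le_left (ee d R A i x) (ee d R A j y)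
    have h6 := min_le_right (ee d R A i x) (ee d R A j y)
    have h7 := h.le i j hij
    linarith

theorem TT_root (hd : IsMet d) (h : Leg d R A) {i j : Fin 3} (hij : i ≠ j) :
    TT d R A (R i) (R j) = A i + A j := by
  unfold TT
  rw [Fin.sum_univ_three]
  have e1 : ∀ k, k ≠ i → ee d R A k (R i) = 0 := fun k hk => ee_other hd h hk
  have e2 : ∀ k, k ≠ j → ee d R A k (R j) = 0 := fun k hk => ee_other hd h hk
  have r1 := ee_root hd h i
  have r2 := ee_root hd h j
  have n1 := h.nn i
  have n2 := h.nn j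
  have key : ∀ k : Fin 3, |ee d R A k (R i) - ee d R A k (R j)| =
      ee d R A k (R i) + ee d R A k (R j) := by
    intro k
    by_cases h1 : k = i
    · have h2 : k ≠ j := by rw [h1]; exact hij
      rw [e2 k h2, sub_zero, add_zero, abs_of_nonneg (ee_nonneg k _)]
    · rw [e1 k h1, zero_sub, zero_add, abs_neg, abs_of_nonneg (ee_nonneg k _)]
  rw [key 0, key 1, key 2]
  have s1 : ee d R A 0 (R i) + ee d R A 1 (R i) + ee d R A 2 (R i) = A i := by
    rw [← r1]
    fin_cases i
    · rw [e1 1 (by decide), e1 2 (by decide)]; simp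
    · rw [e1 0 (by decide), e1 2 (by decide)]; simp
    · rw [e1 0 (by decide), e1 1 (by decide)]; simp
  have s2 : ee d R A 0 (R j) + ee d R A 1 (R j) + ee d R A 2 (R j) = A j := by
    rw [← r2]
    fin_cases j
    · rw [e2 1 (by decide), e2 2 (by decide)]; simp
    · rw [e2 0 (by decide), e2 2 (by decide)]; simp
    · rw [e2 0 (by decide), e2 1 (by decide)]; simp
  linarith

theorem shr_symm (hd : IsMet d) (x y : V) : shr d R A x y = shr d R A y x := by
  unfold shr
  rw [Finset.sum_comm]
  refine Finset.sum_congr rfl fun j _ => Finset.sum_congr rfl fun i _ => ?_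
  unfold trm
  by_cases hij : i = j
  · rw [if_pos hij, if_pos hij.symm]
  · rw [if_neg hij, if_neg (Ne.symm hij), hd.symm (R i) (R j), add_comm (A i) (A j),
      min_comm (ee d R A i x)]

end Vale.Agent.P235.K5.EX.H360
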