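import Vale.Agent.P235.K5.H237.TriIso
import Vale.Agent.P235.K5.EX.H360.Leg

/-!
P235, line EX, row [E2]: the shrunk metric `D`.
-/

set_option autoImplicit false

namespace Vale.Agent.P235.K5.EX.H360

open Vale.Agent.P235 Vale.Agent.P235.K5.H237

variable {V : Type} {d : V → V → ℝ} {R : Fin 3 → V} {A : Fin 3 → ℝ} {G : SimpleGraph V}

/-- the shrunk lengths -/
noncomputable def ll (d : V → V → ℝ) (R : Fin 3 → V) (A : Fin 3 → ℝ) (x y : V) : ℝ :=
  d x y - shr d R A x y

/-- **the shrunk metric** -/
noncomputable def DD (G : SimpleGraph V) (d : V → V → ℝ) (R : Fin 3 → V) (A : Fin 3 → ℝ) :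
    V → V → ℝ := dual G (ll d R A)

theorem ll_le (h : Leg d R A) (x y : V) : ll d R A x y ≤ d x y := by
  unfold ll
  linarith [shr_nonneg h x y]

theorem le_ll (hd : IsMet d) (h : Leg d R A) (x y : V) : 7 / 8 * d x y ≤ ll d R A x y := by
  unfold ll
  linarith [shr_le hd h x y]

theorem ll_nonneg (hd : IsMet d) (h : Leg d R A) (x y : V) : 0 ≤ ll d R A x y := by
  linarith [le_ll hd h x y, hd.nonneg x y]

theorem TT_le_ll (hd : IsMet d) (h : Leg d R A) (x y : V) : TT d R A x y ≤ ll d R A x y :=
  TT_le hd h x y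

theorem DD_isMet (hd : IsMet d) (hG : Gen G d) (h : Leg d R A) : IsMet (DD G d R A) :=
  dual_isMet hd hG (fun u v _ => ll_le h u v) (δ := 7 / 8) (by norm_num)
    fun u v _ => le_ll hd h u v

theorem DD_gen (hd : IsMet d) (hG : Gen G d) (h : Leg d R A) : Gen G (DD G d R A) :=
  dual_gen hG (fun u v _ => ll_le h u v) fun u v _ => ll_nonneg hd h u v

theorem DD_le_d (hd : IsMet d) (hG : Gen G d) (h : Leg d R A) (x y : V) :
    DD G d R A x y ≤ d x y :=
  dual_le (fun u v _ => ll_nonneg hd h u v) fun _ hf => lip_le hG (fun u v _ => ll_le h u v) hf x y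

theorem DD_le_ll (hd : IsMet d) (h : Leg d R A) {u v : V} (huv : G.Adj u v) :
    DD G d R A u v ≤ ll d R A u v :=
  dual_le (fun u v _ => ll_nonneg hd h u v) fun _ hf => hf u v huv

/-- a function which is Lipschitz for the shrunk lengths on the edges is Lipschitz for `D` -/
theorem DD_lip (hG : Gen G d) (h : Leg d R A) {f : V → ℝ}
    (hf : ∀ u v, G.Adj u v → |f u - f v| ≤ ll d R A u v) (x y : V) :
    |f x - f y| ≤ DD G d R A x y :=
  le_dual hG (fun u v _ => ll_le h u v) hf x y

theorem le_DD (hd : IsMet d) (hG : Gen G d) (h : Leg d R A) (x y : V) :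
    7 / 8 * d x y ≤ DD G d R A x y := by
  have h1 := DD_lip (G := G) hG h (f := fun z => 7 / 8 * d z y) (fun u v _ => by
    rw [← mul_sub, abs_mul, abs_of_pos (show (0 : ℝ) < 7 / 8 by norm_num)]
    exact (mul_le_mul_of_nonneg_left (abs_dist_sub hd u v y) (by norm_num)).trans
      (le_ll hd h u v)) x y
  simp only [hd.self, mul_zero, sub_zero] at h1
  exact (le_abs_self _).trans h1

theorem TT_le_DD [Finite V] (hd : IsMet d) (hG : Gen G d) (h : Leg d R A) (x y : V) :
    TT d R A x y ≤ DD G d R A x y := by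
  have hT : IsL1 (TT d R A) := isL1_TT
  have h1 := DD_lip (G := G) hG h (f := fun z => TT d R A z y) (fun u v _ =>
    (hT.abs_sub_le u v y).trans (TT_le_ll hd h u v)) x y
  simp only [hT.self, sub_zero] at h1
  exact (le_abs_self _).trans h1

/-- the prescribed distances of the root triple are at most `D` -/
theorem leg_DD [Finite V] (hd : IsMet d) (hG : Gen G d) (h : Leg d R A) :
    Leg (DD G d R A) R A := by
  refine ⟨h.nn, fun i j hij => ?_⟩
  rw [← TT_root hd h hij]
  exact TT_le_DD hd hG h _ _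

/-- edges of the graph, `F` below a mixture of `T` and `l`: the slack -/
theorem slack_edge (hd : IsMet d) (h : Leg d R A) {F : V → V → ℝ} {a : ℝ} {u v : V}
    (hF : F u v ≤ a * TT d R A u v + (1 - a) * ll d R A u v) :
    a * (ll d R A u v - TT d R A u v) ≤ ll d R A u v - F u v ∧
      d u v - F u v = shr d R A u v + (ll d R A u v - F u v) := by
  constructor
  · linarith
  · unfold ll
    ring

end Vale.Agent.P235.K5.EX.H360
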