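import Vale.Agent.P235.K5.EX.H360.Shrink
import Vale.Agent.P235.K5.EX.Defs

/-!
P235, line EX, row [E2] in the literal of `K5/EX/Defs.lean`.
-/

set_option autoImplicit false

namespace Vale.Agent.P235.K5.EX.H360

open Vale.Agent.P235 Vale.Agent.P235.K5.H237

variable {V : Type} {d : V → V → ℝ} {R : Fin 3 → V} {A : Fin 3 → ℝ} {G : SimpleGraph V}

/-- slope one up to `a`, then three quarters -/
noncomputable def phi (a u : ℝ) : ℝ := min u (a + 3 / 4 * (u - a))

theorem phi_lo {a u : ℝ} (h : u ≤ a) : phi a u = u := min_eq_left (by linarith)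

theorem phi_hi {a u : ℝ} (h : a ≤ u) : phi a u = a + 3 / 4 * (u - a) := min_eq_right (by linarith)

theorem phi_lip (a u v : ℝ) : |phi a u - phi a v| ≤ |u - v| := by
  rcases le_total u a with h1 | h1 <;> rcases le_total v a with h2 | h2
  · rw [phi_lo h1, phi_lo h2]
  · rw [phi_lo h1, phi_hi h2, abs_of_nonpos (by linarith), abs_of_nonpos (by linarith)]
    linarith
  · rw [phi_hi h1, phi_lo h2, abs_of_nonneg (by linarith), abs_of_nonneg (by linarith)]
    linarith
  · rw [phi_hi h1, phi_hi h2]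
    have e : a + 3 / 4 * (u - a) - (a + 3 / 4 * (v - a)) = 3 / 4 * (u - v) := by ring
    rw [e, abs_mul, abs_of_pos (show (0 : ℝ) < 3 / 4 by norm_num)]
    linarith [abs_nonneg (u - v)]

/-- the unshrink function is Lipschitz for the shrunk lengths -/
theorem phi_ll (hd : IsMet d) (h : Leg d R A) (i : Fin 3) (u v : V) :
    |phi (A i) (d u (R i)) - phi (A i) (d v (R i))| ≤ ll d R A u v := by
  have h0 := (phi_lip (A i) (d u (R i)) (d v (R i))).trans (abs_dist_sub hd u v (R i))
  rcases cases hd h u v with ⟨_, h1, _⟩ | ⟨a, b, hab, hu, hv, _, h2, h3⟩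
  · unfold ll
    rw [h1, sub_zero]
    exact h0
  have s1 := min_le_right (d (R a) (R b) - (A a + A b)) (min (ee d R A a u) (ee d R A b v) / 4)
  have s2 := min_le_left (ee d R A a u) (ee d R A b v)
  have s3 := min_le_right (ee d R A a u) (ee d R A b v)
  rw [← h2] at s1
  have hl := h.le a b hab
  have tri := abs_le.1 (abs_dist_sub hd u v (R i))
  unfold ll
  by_cases ha : a = i
  · subst ha
    obtain ⟨e1, e2⟩ := ee_pos hu
    have e3 : ee d R A a v = 0 := ee_one hd h (Ne.symm hab) hv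
    have e4 := le_ee (d := d) (R := R) (A := A) a v
    rw [e3] at e4
    rw [phi_lo e2.le, phi_hi (by linarith), abs_le]
    constructor <;> linarith [tri.1, tri.2]
  by_cases hb : b = i
  · subst hb
    obtain ⟨e1, e2⟩ := ee_pos hv
    have e3 : ee d R A b u = 0 := ee_one hd h hab hu
    have e4 := le_ee (d := d) (R := R) (A := A) b u
    rw [e3] at e4
    rw [phi_lo e2.le, phi_hi (by linarith), abs_le]
    constructor <;> linarith [tri.1, tri.2]
  · have e3 : ee d R A i u = 0 := ee_one hd h ha hu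
    have e3' : ee d R A i v = 0 := ee_one hd h hb hv
    have e4 := le_ee (d := d) (R := R) (A := A) i u
    have e4' := le_ee (d := d) (R := R) (A := A) i v
    rw [e3] at e4
    rw [e3'] at e4'
    rw [phi_hi (by linarith), phi_hi (by linarith), abs_le]
    constructor <;> linarith [tri.1, tri.2]

theorem unshrink (hd : IsMet d) (hG : Gen G d) (h : Leg d R A) (i : Fin 3) (x : V) (t : ℝ)
    (ht : 0 ≤ t) (hx : DD G d R A x (R i) ≤ A i + t) : d x (R i) ≤ A i + 4 / 3 * t := by
  have h1 := DD_lip (G := G) hG h (f := fun z => phi (A i) (d z (R i)))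
    (fun u v _ => phi_ll hd h i u v) x (R i)
  simp only [hd.self] at h1
  rw [phi_lo (h.nn i), sub_zero] at h1
  have h2 := (le_abs_self _).trans (h1.trans hx)
  rcases le_total (d x (R i)) (A i) with h3 | h3
  · linarith
  · rw [phi_hi h3] at h2
    linarith

theorem ga_add {ρ : Fin 3 → Fin 3 → ℝ} (hρ : IsMet ρ) {i j : Fin 3} (hij : i ≠ j) :
    ga ρ i + ga ρ j = ρ i j := by
  have s01 := hρ.symm 1 0
  have s02 := hρ.symm 2 0
  have s12 := hρ.symm 2 1
  have g0 : ga ρ 0 = (ρ 0 1 + ρ 0 2 - ρ 1 2) / 2 := rfl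
  have g1 : ga ρ 1 = (ρ 1 2 + ρ 1 0 - ρ 2 0) / 2 := rfl
  have g2 : ga ρ 2 = (ρ 2 0 + ρ 2 1 - ρ 0 1) / 2 := rfl
  fin_cases i <;> fin_cases j
  · exact absurd rfl hij
  · show ga ρ 0 + ga ρ 1 = ρ 0 1
    rw [g0, g1]; linarith
  · show ga ρ 0 + ga ρ 2 = ρ 0 2
    rw [g0, g2]; linarith
  · show ga ρ 1 + ga ρ 0 = ρ 1 0
    rw [g0, g1]; linarith
  · exact absurd rfl hij
  · show ga ρ 1 + ga ρ 2 = ρ 1 2
    rw [g1, g2]; linarith
  · show ga ρ 2 + ga ρ 0 = ρ 2 0
    rw [g0, g2]; linarith
  · show ga ρ 2 + ga ρ 1 = ρ 2 1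
    rw [g1, g2]; linarith
  · exact absurd rfl hij

theorem ga_nonneg {ρ : Fin 3 → Fin 3 → ℝ} (hρ : IsMet ρ) (i : Fin 3) : 0 ≤ ga ρ i := by
  unfold ga
  have h := hρ.tri (i + 1) i (i + 2)
  rw [hρ.symm (i + 1) i] at h
  linarith

theorem leg_of {ρ : Fin 3 → Fin 3 → ℝ} (hρ : IsMet ρ) (hle : ∀ i j, ρ i j ≤ d (R i) (R j)) :
    Leg d R (ga ρ) :=
  ⟨ga_nonneg hρ, fun i j hij => by rw [ga_add hρ hij]; exact hle i j⟩

theorem tt_eq (x y : V) : EX.TT (ee d R A) x y = TT d R A x y := by
  unfold EX.TT TT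
  rw [Fin.sum_univ_three]

theorem sh_low (h : Leg d R A) {i j : Fin 3} (hij : i ≠ j) (x y : V) :
    min (d (R i) (R j) - (A i + A j)) (1 / 4 * min (ee d R A i x) (ee d R A j y)) ≤
      shr d R A x y := by
  have e : trm d R A i j x y =
      min (d (R i) (R j) - (A i + A j)) (1 / 4 * min (ee d R A i x) (ee d R A j y)) := by
    unfold trm
    rw [if_neg hij]
    congr 1
    ring
  rw [← e]
  unfold shr
  refine le_trans ?_ (Finset.single_le_sum (f := fun i => ∑ j, trm d R A i j x y)
    (fun i _ => Finset.sum_nonneg fun j _ => trm_nonneg h i j x y) (Finset.mem_univ i))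
  exact Finset.single_le_sum (f := fun j => trm d R A i j x y)
    (fun j _ => trm_nonneg h i j x y) (Finset.mem_univ j)

/-- **[E2]** -/
theorem shr_stmt : ShrStmt := by
  intro V _ G d hd hG R _ ρ hρ hle
  have h : Leg d R (ga ρ) := leg_of hρ hle
  refine ⟨ee d R (ga ρ), shr d R (ga ρ), DD G d R (ga ρ), ?_⟩
  exact
    { e_nonneg := fun i x => ee_nonneg i x
      e_le := fun i x => max_le (by linarith [hd.nonneg x (R i)]) (h.nn i)
      one := fun i j x hij => by
        by_cases h1 : ee d R (ga ρ) i x = 0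
        · exact Or.inl h1
        · exact Or.inr (ee_one hd h hij (lt_of_le_of_ne (ee_nonneg i x) (Ne.symm h1)))
      root := fun i => ee_root hd h i
      root' := fun i j hij => ee_other hd h (Ne.symm hij)
      sh_nonneg := fun x y => shr_nonneg h x y
      sh_low := fun i j x y hij => by
        have := sh_low h hij x y
        rwa [ga_add hρ hij] at this
      sh_up := fun x y => by linarith [shr_le hd h x y, hd.nonneg x y]
      tt_le := fun x y => by
        rw [tt_eq]
        exact TT_le hd h x y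
      met := DD_isMet hd hG h
      gen := DD_gen hd hG h
      le_d := fun x y => DD_le_d hd hG h x y
      le_edge := fun x y hxy => DD_le_ll hd h hxy
      tt_D := fun x y => by
        rw [tt_eq]
        exact TT_le_DD hd hG h x y
      low := fun x y => by linarith [le_DD hd hG h x y, hd.nonneg x y]
      unshrink := fun i x t ht hx => unshrink hd hG h i x t ht hx }

end Vale.Agent.P235.K5.EX.H360
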